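import Mathlib
import Crest.Agent.N337.Slot.Defs

-- ▼ part N337/LY/Two
section

/-!
# Row 337, LY part 2: partial symmetrisation preserves half-plane stability (two variables)
-/

set_option autoImplicit false

namespace Crest.Agent.N337.LY

theorem re_mul_le_norm (x y : ℂ) : 2 * (x.re * y.re) ≤ ‖x * y‖ + (x * y).re := by
  have h : x.re * y.re + x.im * y.im ≤ ‖x‖ * ‖y‖ := by
    have h1 := Complex.re_le_norm (x * (starRingEnd ℂ) y)
    simpa [Complex.mul_re] using h1
  rw [norm_mul, Complex.mul_re]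
  linarith

theorem norm_sq_add_re (w : ℂ) : ‖w ^ 2‖ + (w ^ 2).re = 2 * w.re ^ 2 := by
  rw [norm_pow, Complex.sq_norm, Complex.normSq_apply, pow_two w, Complex.mul_re]
  ring

theorem nec_re {B C E : ℂ}
    (h : ∀ v1 v2 : ℂ, 0 < v1.re → 0 < v2.re → (v1 + C) * (v2 + B) ≠ E) : 0 ≤ B.re := by
  by_contra hB
  push Not at hB
  set T : ℝ := |C.re| + |E.re| / (-B.re) + 1 with hT
  have hb : 0 < -B.re := by linarith
  have h1 : 0 ≤ |E.re| / (-B.re) := by positivity
  have hT0 : 0 < T := by have := abs_nonneg C.re; linarith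
  have hTc : (T : ℂ) ≠ 0 := by exact_mod_cast hT0.ne'
  refine h (T - C) (E / T - B) ?_ ?_ ?_
  · have := le_abs_self C.re
    simp only [Complex.sub_re, Complex.ofReal_re]; linarith
  · rw [Complex.sub_re, Complex.div_ofReal_re, sub_pos, lt_div_iff₀ hT0]
    have h2 : |E.re| / (-B.re) * (-B.re) = |E.re| := div_mul_cancel₀ _ hb.ne'
    have h3 := neg_abs_le E.re
    have h4 : 0 ≤ |C.re| * (-B.re) := by positivity
    rw [hT]; nlinarith
  · field_simp; ring

theorem nec_E {B C E : ℂ}
    (h : ∀ v1 v2 : ℂ, 0 < v1.re → 0 < v2.re → (v1 + C) * (v2 + B) ≠ E)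
    (hB : 0 ≤ B.re) (hC : 0 ≤ C.re) : ‖E‖ + E.re ≤ 2 * (B.re * C.re) := by
  obtain ⟨w, hw, hw0⟩ : ∃ w : ℂ, w ^ 2 = E ∧ 0 ≤ w.re := by
    obtain ⟨w, hw⟩ := IsAlgClosed.exists_pow_nat_eq E (n := 2) (by norm_num)
    rcases le_total 0 w.re with h0 | h0
    · exact ⟨w, hw, h0⟩
    · exact ⟨-w, by rw [neg_sq, hw], by simpa using h0⟩
  rw [← hw, norm_sq_add_re]
  by_contra hlt
  push Not at hlt
  have hbc : 0 ≤ B.re * C.re := mul_nonneg hB hC
  have hwp : 0 < w.re := by
    rcases hw0.lt_or_eq with h0 | h0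
    · exact h0
    · rw [← h0] at hlt; nlinarith
  set ε : ℝ := (w.re ^ 2 - B.re * C.re) / (B.re + 1) with hε
  have hε0 : 0 < ε := div_pos (by linarith) (by linarith)
  have hε1 : ε * (B.re + 1) = w.re ^ 2 - B.re * C.re := by rw [hε]; field_simp
  set l : ℝ := (C.re + ε) / w.re with hl
  have hl0 : 0 < l := div_pos (by linarith) hwp
  have hl1 : l * w.re = C.re + ε := by rw [hl]; field_simp
  have hlc : (l : ℂ) ≠ 0 := by exact_mod_cast hl0.ne'
  refine h (l * w - C) (w / l - B) ?_ ?_ ?_
  · simp only [Complex.sub_re, Complex.re_ofReal_mul]; linarith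
  · rw [Complex.sub_re, Complex.div_ofReal_re, sub_pos, lt_div_iff₀ hl0]
    have : B.re * l * w.re < w.re * w.re := by
      rw [mul_assoc, hl1]; nlinarith
    exact lt_of_mul_lt_mul_right this hwp.le
  · rw [← hw]; field_simp; ring

theorem two_var_monic {A B C : ℂ}
    (h : ∀ v1 v2 : ℂ, 0 < v1.re → 0 < v2.re → A + B * v1 + C * v2 + v1 * v2 ≠ 0)
    {p : ℝ} (hp0 : 0 ≤ p) (hp1 : p ≤ 1) {v1 v2 : ℂ} (h1 : 0 < v1.re) (h2 : 0 < v2.re) :
    A + ((1 - p) * B + p * C) * v1 + ((1 - p) * C + p * B) * v2 + v1 * v2 ≠ 0 := by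
  have h' : ∀ v1 v2 : ℂ, 0 < v1.re → 0 < v2.re → (v1 + C) * (v2 + B) ≠ B * C - A := by
    intro v1 v2 a b e
    exact h v1 v2 a b (by linear_combination e)
  have h'' : ∀ v1 v2 : ℂ, 0 < v1.re → 0 < v2.re → (v1 + B) * (v2 + C) ≠ B * C - A := by
    intro v1 v2 a b e
    exact h v2 v1 b a (by linear_combination e)
  have hB := nec_re h'
  have hC := nec_re h''
  have hE := nec_E h' hB hC
  intro h0
  set x : ℂ := v1 + ((1 - p) * C + p * B) with hx
  set y : ℂ := v2 + ((1 - p) * B + p * C) with hy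
  have hq : 0 ≤ p * (1 - p) := mul_nonneg hp0 (by linarith)
  have e : x * y = (B * C - A) + ((p * (1 - p) : ℝ) : ℂ) * (B - C) ^ 2 := by
    rw [hx, hy]; push_cast; linear_combination h0
  have hxr : x.re = v1.re + ((1 - p) * C.re + p * B.re) := by
    simp [hx, Complex.mul_re]
  have hyr : y.re = v2.re + ((1 - p) * B.re + p * C.re) := by
    simp [hy, Complex.mul_re]
  have k1 := re_mul_le_norm x y
  have k2 : ‖x * y‖ ≤ ‖B * C - A‖ + p * (1 - p) * ‖(B - C) ^ 2‖ := by
    rw [e]
    refine (norm_add_le _ _).trans ?_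
    rw [norm_mul, Complex.norm_real, Real.norm_of_nonneg hq]
  have k3 : (x * y).re = (B * C - A).re + p * (1 - p) * ((B - C) ^ 2).re := by
    rw [e, Complex.add_re, Complex.re_ofReal_mul]
  have k4 := norm_sq_add_re (B - C)
  rw [Complex.sub_re] at k4
  have k5 : 0 ≤ (1 - p) * C.re + p * B.re :=
    add_nonneg (mul_nonneg (by linarith) hC) (mul_nonneg hp0 hB)
  have k6 : 0 ≤ (1 - p) * B.re + p * C.re :=
    add_nonneg (mul_nonneg (by linarith) hB) (mul_nonneg hp0 hC)
  have k7 : ((1 - p) * C.re + p * B.re) * ((1 - p) * B.re + p * C.re) < x.re * y.re := by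
    rw [hxr, hyr]
    have := mul_pos h1 h2
    have := mul_nonneg h1.le k6
    have := mul_nonneg h2.le k5
    nlinarith
  have k8 : p * (1 - p) * (‖(B - C) ^ 2‖ + ((B - C) ^ 2).re) =
      p * (1 - p) * (2 * (B.re - C.re) ^ 2) := by rw [k4]
  nlinarith

/-- partial symmetrisation of a stable bi-affine function is stable. -/
theorem two_var {A B C D : ℂ}
    (h : ∀ v1 v2 : ℂ, 0 < v1.re → 0 < v2.re → A + B * v1 + C * v2 + D * (v1 * v2) ≠ 0)
    {p : ℝ} (hp0 : 0 ≤ p) (hp1 : p ≤ 1) {v1 v2 : ℂ} (h1 : 0 < v1.re) (h2 : 0 < v2.re) :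
    A + ((1 - p) * B + p * C) * v1 + ((1 - p) * C + p * B) * v2 + D * (v1 * v2) ≠ 0 := by
  by_cases hD : D = 0
  · subst hD
    have conv : ∀ a b : ℝ, 0 < a → 0 < b → 0 < (1 - p) * a + p * b := by
      intro a b ha hb
      rcases hp0.lt_or_eq with h | h
      · have := mul_pos h hb
        have := mul_nonneg (sub_nonneg.2 hp1) ha.le
        linarith
      · subst h; simpa using ha
    intro h0
    refine h ((1 - p) * v1 + p * v2) ((1 - p) * v2 + p * v1) ?_ ?_ (by linear_combination h0)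
    · simpa [Complex.mul_re] using conv _ _ h1 h2
    · simpa [Complex.mul_re] using conv _ _ h2 h1
  · have h' : ∀ v1 v2 : ℂ, 0 < v1.re → 0 < v2.re →
        A / D + B / D * v1 + C / D * v2 + v1 * v2 ≠ 0 := by
      intro v1 v2 a b e
      apply h v1 v2 a b
      have : A + B * v1 + C * v2 + D * (v1 * v2) =
        D * (A / D + B / D * v1 + C / D * v2 + v1 * v2) := by field_simp
      rw [this, e, mul_zero]
    intro h0
    apply two_var_monic h' hp0 hp1 h1 h2
    have : A / D + ((1 - p) * (B / D) + p * (C / D)) * v1 + ((1 - p) * (C / D) + p * (B / D)) * v2 +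
        v1 * v2 = (A + ((1 - p) * B + p * C) * v1 + ((1 - p) * C + p * B) * v2 +
          D * (v1 * v2)) / D := by field_simp
    rw [this, h0, zero_div]

end Crest.Agent.N337.LY
end

-- ▼ part N337/LY/Poly
section

/-!
# Row 337, LY part 1: one-variable polynomial inequalities from the location of the roots
-/

set_option autoImplicit false

namespace Crest.Agent.N337.LY

open Polynomial

/-- induction over the linear factors; `S` is a root-free region. -/
theorem poly_ind (S : ℂ → Prop) (p : ℂ[X] → Prop) (hC : ∀ c : ℂ, p (C c))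
    (hX : ∀ a : ℂ, ¬ S (-a) → p (X + C a))
    (hmul : ∀ Q R : ℂ[X], (∀ z, S z → Q.eval z ≠ 0) → (∀ z, S z → R.eval z ≠ 0) →
      p Q → p R → p (Q * R))
    (Q : ℂ[X]) (hQ : ∀ z, S z → Q.eval z ≠ 0) : p Q := by
  have hs : Q ∈ Submonoid.closure ({C a | a : ℂ} ∪ {X + C a | a : ℂ} : Set ℂ[X]) :=
    IsAlgClosed.splits Q
  induction hs using Submonoid.closure_induction with
  | mem x hx =>
    rcases hx with ⟨a, rfl⟩ | ⟨a, rfl⟩
    · exact hC a
    · exact hX a fun h => hQ _ h (by simp)
  | one => simpa using hC 1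
  | mul x y _ _ ihx ihy =>
    have h1 : ∀ z, S z → x.eval z ≠ 0 := fun z hz h => hQ z hz (by simp [h])
    have h2 : ∀ z, S z → y.eval z ≠ 0 := fun z hz h => hQ z hz (by simp [h])
    exact hmul x y h1 h2 (ihx h1) (ihy h2)

theorem norm_mul_re_le {a s : ℂ} (ha : 0 ≤ a.re) (hs : 0 < s.re) :
    ‖a‖ * s.re ≤ ‖s + a‖ * ‖s‖ := by
  apply le_of_sq_le_sq_of_nonneg_aux
  · positivity
  rw [mul_pow, mul_pow, Complex.sq_norm, Complex.sq_norm, Complex.sq_norm]
  simp only [Complex.normSq_apply, Complex.add_re, Complex.add_im]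
  have h1 := sq_nonneg (s.re * s.re + (s.im + a.im) * s.im)
  have h2 : 0 ≤ s.re * a.re * (s.re * s.re + s.im * s.im) :=
    mul_nonneg (mul_nonneg hs.le ha) (add_nonneg (mul_self_nonneg _) (mul_self_nonneg _))
  have h3 : 0 ≤ a.re * a.re * (s.im * s.im) := by
    have := mul_self_nonneg a.re; have := mul_self_nonneg s.im; positivity
  nlinarith
where
  le_of_sq_le_sq_of_nonneg_aux {x y : ℝ} (hy : 0 ≤ y) (h : x ^ 2 ≤ y ^ 2) : x ≤ y :=
    le_trans (le_abs_self x) (abs_le_of_sq_le_sq' h hy |> fun h => abs_le.2 h)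

/-- quantitative Hurwitz: no roots in the right half plane. -/
theorem L3 (Q : ℂ[X]) (hQ : ∀ z : ℂ, 0 < z.re → Q.eval z ≠ 0) {s : ℂ} (hs : 0 < s.re)
    {D : ℕ} (hD : Q.natDegree ≤ D) : ‖Q.eval 0‖ * (s.re / ‖s‖) ^ D ≤ ‖Q.eval s‖ := by
  have hs0 : 0 < ‖s‖ := lt_of_lt_of_le hs ((le_abs_self _).trans (Complex.abs_re_le_norm s))
  have hρ0 : 0 ≤ s.re / ‖s‖ := by positivity
  have hρ1 : s.re / ‖s‖ ≤ 1 :=
    (div_le_one hs0).2 ((le_abs_self _).trans (Complex.abs_re_le_norm s))
  have key : ‖Q.eval 0‖ * (s.re / ‖s‖) ^ Q.natDegree ≤ ‖Q.eval s‖ := by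
    refine poly_ind (fun z => 0 < z.re)
      (fun Q => ‖Q.eval 0‖ * (s.re / ‖s‖) ^ Q.natDegree ≤ ‖Q.eval s‖) ?_ ?_ ?_ Q hQ
    · intro c; simp
    · intro a ha
      have ha' : 0 ≤ a.re := by simpa using ha
      simp only [natDegree_X_add_C, eval_add, eval_X, eval_C, zero_add, pow_one]
      rw [← mul_div_assoc, div_le_iff₀ hs0]
      exact norm_mul_re_le ha' hs
    · intro P R hP hR ihP ihR
      have hP0 : P ≠ 0 := fun h => hP 1 (by simp) (by simp [h])
      have hR0 : R ≠ 0 := fun h => hR 1 (by simp) (by simp [h])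
      simp only [natDegree_mul hP0 hR0, eval_mul, norm_mul, pow_add]
      calc _ = (‖P.eval 0‖ * (s.re / ‖s‖) ^ P.natDegree) *
            (‖R.eval 0‖ * (s.re / ‖s‖) ^ R.natDegree) := by ring
        _ ≤ _ := mul_le_mul ihP ihR (by positivity) (norm_nonneg _)
  exact le_trans (mul_le_mul_of_nonneg_left (pow_le_pow_of_le_one hρ0 hρ1 hD) (norm_nonneg _)) key

/-- all roots real and negative. -/
theorem L4 (Q : ℂ[X]) (hQ : ∀ z : ℂ, ¬ (z.im = 0 ∧ z.re < 0) → Q.eval z ≠ 0) :
    ‖Q.eval 1‖ ≤ ‖Q.eval 0‖ * Real.exp ((Q.derivative.eval 0 / Q.eval 0).re) := by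
  refine poly_ind (fun z => ¬ (z.im = 0 ∧ z.re < 0))
    (fun Q => ‖Q.eval 1‖ ≤ ‖Q.eval 0‖ * Real.exp ((Q.derivative.eval 0 / Q.eval 0).re))
    ?_ ?_ ?_ Q hQ
  · intro c; simp
  · intro a ha
    have ha' : a.im = 0 ∧ 0 < a.re := by simpa using ha
    obtain ⟨r, rfl⟩ : ∃ r : ℝ, a = r := ⟨a.re, Complex.ext rfl (by simp [ha'.1])⟩
    have hr : 0 < r := by simpa using ha'.2
    simp only [eval_add, eval_X, eval_C, zero_add, derivative_add, derivative_X, derivative_C,
      add_zero, eval_one]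
    have e1 : (1 : ℂ) + r = ((1 + r : ℝ) : ℂ) := by push_cast; ring
    have e2 : (1 : ℂ) / r = ((1 / r : ℝ) : ℂ) := by push_cast; ring
    rw [e1, e2, Complex.norm_real, Complex.norm_real, Complex.ofReal_re,
      Real.norm_of_nonneg (by positivity), Real.norm_of_nonneg hr.le]
    have h := Real.add_one_le_exp (1 / r)
    calc 1 + r = r * (1 / r + 1) := by field_simp
      _ ≤ _ := mul_le_mul_of_nonneg_left h hr.le
  · intro P R hP hR ihP ihR
    have hP0 : P.eval 0 ≠ 0 := hP 0 (by simp)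
    have hR0 : R.eval 0 ≠ 0 := hR 0 (by simp)
    have e : (P * R).derivative.eval 0 / (P * R).eval 0 =
        P.derivative.eval 0 / P.eval 0 + R.derivative.eval 0 / R.eval 0 := by
      simp only [derivative_mul, eval_add, eval_mul]; field_simp
    rw [e, Complex.add_re, Real.exp_add]
    simp only [eval_mul, norm_mul]
    calc _ ≤ (‖P.eval 0‖ * Real.exp ((P.derivative.eval 0 / P.eval 0).re)) *
          (‖R.eval 0‖ * Real.exp ((R.derivative.eval 0 / R.eval 0).re)) :=
          mul_le_mul ihP ihR (norm_nonneg _) (by positivity)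
      _ = _ := by ring

theorem L5 (Q : ℂ[X]) (hQ : ∀ z : ℂ, 0 < z.re → Q.eval z ≠ 0) : ‖Q.eval (-1)‖ ≤ ‖Q.eval 1‖ := by
  refine poly_ind (fun z => 0 < z.re) (fun Q => ‖Q.eval (-1)‖ ≤ ‖Q.eval 1‖) ?_ ?_ ?_ Q hQ
  · intro c; simp
  · intro a ha
    have ha' : 0 ≤ a.re := by simpa using ha
    simp only [eval_add, eval_X, eval_C]
    rw [← sq_le_sq₀ (norm_nonneg _) (norm_nonneg _), Complex.sq_norm, Complex.sq_norm]
    simp only [Complex.normSq_apply, Complex.add_re, Complex.add_im, Complex.neg_re,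
      Complex.neg_im, Complex.one_re, Complex.one_im]
    nlinarith
  · intro P R _ _ ihP ihR
    simp only [eval_mul, norm_mul]
    exact mul_le_mul ihP ihR (norm_nonneg _) (norm_nonneg _)

/-- the Asano contraction, regularised. -/
theorem asano {a b c d : ℂ}
    (h : ∀ u v : ℂ, 0 < u.re → 0 < v.re → a + b * u + c * v + d * (u * v) ≠ 0)
    {t : ℝ} (ht0 : 0 ≤ t) (ht1 : t < 1) :
    (1 + t) / 2 * (a + d) + (1 - t) / 2 * (b + c) ≠ 0 := by
  have hq : ∀ z : ℂ, 0 < z.re →
      (C a + C (b + c) * X + C d * X ^ 2 : ℂ[X]).eval z ≠ 0 := by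
    intro z hz h0
    apply h z z hz hz
    simp only [eval_add, eval_mul, eval_C, eval_X, eval_pow] at h0
    linear_combination h0
  have h5 := L5 _ hq
  have h1 := hq 1 (by simp)
  simp only [eval_add, eval_mul, eval_C, eval_X, eval_pow] at h5 h1
  intro h0
  have e : a + (b + c) * 1 + d * 1 ^ 2 = -(t : ℂ) * (a + (b + c) * (-1) + d * (-1) ^ 2) := by
    linear_combination 2 * h0
  have hpos := norm_pos_iff.2 h1
  have e2 := congrArg norm e
  rw [norm_mul, norm_neg, Complex.norm_real, Real.norm_of_nonneg ht0] at e2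
  nlinarith [norm_nonneg (a + (b + c) * (-1) + d * (-1) ^ 2)]

end Crest.Agent.N337.LY
end

-- ▼ part N337/LY/Pres

/-!
# Row 337, LY part 3: stability preservers and the Asano contraction of the trace
-/

set_option autoImplicit false

namespace Crest.Agent.N337.LY

open Crest.Agent.N337.Slot Matrix

variable {Λ : Type} [Fintype Λ] [DecidableEq Λ]

abbrev COp (Λ : Type) : Type := Matrix (Λ → Bool) (Λ → Bool) ℂ

/-- complexification. -/
noncomputable abbrev cm : BOp Λ →+* COp Λ := Complex.ofRealHom.mapMatrix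

/-- tensor product of complex one-slot matrices. -/
def tc (A : Λ → Bool → Bool → ℂ) : COp Λ := Matrix.of fun σ τ => ∏ x, A x (σ x) (τ x)

/-- product vector with one-slot vectors `(1, v x)`. -/
def ket (v : Λ → ℂ) : (Λ → Bool) → ℂ := fun τ => ∏ x, if τ x = true then v x else 1

def Cc (a : Λ → ℂ) : COp Λ := tc fun x i j => if i = j then 1 else if i = true then a x else 0
def Ac (a : Λ → ℂ) : COp Λ := tc fun x i j => if i = j then 1 else if j = true then a x else 0
def Dg (s : ℂ) : COp Λ := Matrix.diagonal fun σ => s ^ cnt σ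

def InH (v : Λ → ℂ) : Prop := ∀ x, 0 < (v x).re
def Stable (f : (Λ → Bool) → ℂ) : Prop := ∀ v, InH v → f ⬝ᵥ ket v ≠ 0
def Pres (X : COp Λ) : Prop := ∀ f, Stable f → Stable (f ᵥ* X)

theorem cm_apply (A : BOp Λ) (σ τ : Λ → Bool) : cm A σ τ = (A σ τ : ℂ) := rfl

theorem cm_tens (A : Λ → Bool → Bool → ℝ) : cm (tens A) = tc fun x i j => (A x i j : ℂ) := by
  ext σ τ; simp [cm_apply, tens, tc]

theorem cm_Ecr (a : Λ → ℝ) : cm (Ecr a) = Cc fun x => (a x : ℂ) := by
  rw [Ecr, cm_tens, Cc]; congr 1; funext x i j; split_ifs <;> simp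

theorem cm_Ean (a : Λ → ℝ) : cm (Ean a) = Ac fun x => (a x : ℂ) := by
  rw [Ean, cm_tens, Ac]; congr 1; funext x i j; split_ifs <;> simp

theorem cm_fug (ζ : ℝ) : cm (fug ζ : BOp Λ) = Dg ζ := by
  ext σ τ; by_cases h : σ = τ <;> simp [cm_apply, fug, Dg, Matrix.diagonal_apply, h]

theorem cm_smul (c : ℝ) (A : BOp Λ) : cm (c • A) = (c : ℂ) • cm A := by
  ext σ τ; simp [cm_apply]

theorem cm_trace (A : BOp Λ) : (cm A).trace = (A.trace : ℂ) := by
  simp [Matrix.trace, cm_apply]

omit [DecidableEq Λ] in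
theorem pow_cnt {R : Type*} [CommMonoid R] (s : R) (σ : Λ → Bool) :
    s ^ cnt σ = ∏ x, if σ x = true then s else 1 := by
  rw [Finset.prod_ite, Finset.prod_const, Finset.prod_const_one, mul_one, cnt]

theorem tc_mulVec (A : Λ → Bool → Bool → ℂ) (φ : Λ → Bool → ℂ) :
    tc A *ᵥ (fun τ => ∏ x, φ x (τ x)) = fun σ => ∏ x, ∑ j, A x (σ x) j * φ x j := by
  funext σ
  rw [Finset.prod_univ_sum]
  simp only [mulVec, dotProduct, tc, of_apply, Fintype.piFinset_univ, Finset.prod_mul_distrib]

theorem Cc_ket (a v : Λ → ℂ) : Cc a *ᵥ ket v = ket (fun x => v x + a x) := by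
  have := tc_mulVec (fun x i j => if i = j then 1 else if i = true then a x else 0)
    (fun x j => if j = true then v x else 1)
  refine this.trans ?_
  funext σ
  refine Finset.prod_congr rfl fun x _ => ?_
  cases σ x <;> simp

theorem Ac_ket (a v : Λ → ℂ) (h : ∀ x, 1 + a x * v x ≠ 0) :
    Ac a *ᵥ ket v = (∏ x, (1 + a x * v x)) • ket (fun x => v x / (1 + a x * v x)) := by
  have := tc_mulVec (fun x i j => if i = j then 1 else if j = true then a x else 0)
    (fun x j => if j = true then v x else 1)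
  refine this.trans ?_
  funext σ
  simp only [Pi.smul_apply, smul_eq_mul, ket, ← Finset.prod_mul_distrib]
  refine Finset.prod_congr rfl fun x _ => ?_
  have := h x
  cases σ x
  · simp [add_comm]
  · simp [mul_div_cancel₀ _ this]

theorem Dg_ket (s : ℂ) (v : Λ → ℂ) : Dg s *ᵥ ket v = ket (fun x => s * v x) := by
  funext σ
  rw [Dg, mulVec_diagonal, pow_cnt, ket, ket, ← Finset.prod_mul_distrib]
  refine Finset.prod_congr rfl fun x _ => ?_
  cases σ x <;> simp

omit [Fintype Λ] in
theorem eq_comp_swap_iff (x y : Λ) (σ τ : Λ → Bool) :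
    σ = τ ∘ Equiv.swap x y ↔ τ = σ ∘ Equiv.swap x y := by
  constructor <;> rintro rfl <;> funext z <;> simp

theorem swp_mulVec (x y : Λ) (g : (Λ → Bool) → ℂ) :
    cm (swp x y) *ᵥ g = fun σ => g (σ ∘ Equiv.swap x y) := by
  funext σ
  simp only [mulVec, dotProduct, cm_apply, swp, of_apply, eq_comp_swap_iff x y σ]
  rw [Finset.sum_eq_single (σ ∘ Equiv.swap x y)]
  · simp
  · intro τ _ h; simp [h]
  · simp

theorem swp_ket (x y : Λ) (v : Λ → ℂ) : cm (swp x y) *ᵥ ket v = ket (v ∘ Equiv.swap x y) := by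
  rw [swp_mulVec]
  funext σ
  simp only [ket]
  refine Fintype.prod_equiv (Equiv.swap x y) _ _ fun z => ?_
  simp

theorem ket_update (v : Λ → ℂ) (x : Λ) (w : ℂ) :
    ket (Function.update v x w) =
      (1 - w) • ket (Function.update v x 0) + w • ket (Function.update v x 1) := by
  have key : ∀ (w : ℂ) (τ : Λ → Bool), ket (Function.update v x w) τ =
      (if τ x = true then w else 1) * ∏ z ∈ Finset.univ.erase x, if τ z = true then v z else 1 := by
    intro w τ
    rw [ket, ← Finset.mul_prod_erase _ _ (Finset.mem_univ x), Function.update_self]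
    congr 1
    refine Finset.prod_congr rfl fun z hz => ?_
    rw [Function.update_of_ne (Finset.ne_of_mem_erase hz)]
  funext τ
  simp only [Pi.add_apply, Pi.smul_apply, smul_eq_mul, key]
  cases τ x <;> simp <;> ring

theorem Pres.mul {X Y : COp Λ} (hX : Pres X) (hY : Pres Y) : Pres (X * Y) := fun f hf => by
  rw [← vecMul_vecMul]; exact hY _ (hX f hf)

theorem pres_one : Pres (1 : COp Λ) := fun f hf => by rwa [vecMul_one]

theorem pres_of_map {X : COp Λ}
    (h : ∀ v, InH v → ∃ (c : ℂ) (v' : Λ → ℂ), c ≠ 0 ∧ InH v' ∧ X *ᵥ ket v = c • ket v') :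
    Pres X := fun f hf v hv => by
  obtain ⟨c, v', hc, hv', e⟩ := h v hv
  rw [← dotProduct_mulVec, e, dotProduct_smul, smul_eq_mul]
  exact mul_ne_zero hc (hf v' hv')

theorem pres_Cc {a : Λ → ℂ} (ha : ∀ x, 0 ≤ (a x).re) : Pres (Cc a) :=
  pres_of_map fun v hv => ⟨1, fun x => v x + a x, one_ne_zero,
    fun x => by have := hv x; have := ha x; simp only [Complex.add_re]; linarith,
    by rw [Cc_ket, one_smul]⟩

theorem re_inv_pos {z : ℂ} (hz : 0 < z.re) : 0 < (z⁻¹).re := by
  rw [Complex.inv_re]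
  exact div_pos hz (Complex.normSq_pos.2 fun h => by simp [h] at hz)

theorem pres_Ac {a : Λ → ℂ} (ha : ∀ x, 0 ≤ (a x).re) : Pres (Ac a) := by
  refine pres_of_map fun v hv => ?_
  have h0 : ∀ x, v x ≠ 0 := fun x h => by have := hv x; simp [h] at this
  have h1 : ∀ x, 0 < ((v x)⁻¹ + a x).re := fun x => by
    have := re_inv_pos (hv x); have := ha x; simp only [Complex.add_re]; linarith
  have h2 : ∀ x, (v x)⁻¹ + a x ≠ 0 := fun x h => by have := h1 x; simp [h] at this
  have h3 : ∀ x, 1 + a x * v x = v x * ((v x)⁻¹ + a x) := fun x => by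
    have := h0 x; field_simp
  have h4 : ∀ x, 1 + a x * v x ≠ 0 := fun x => by rw [h3]; exact mul_ne_zero (h0 x) (h2 x)
  refine ⟨_, _, Finset.prod_ne_zero_iff.2 fun x _ => h4 x, fun x => ?_, Ac_ket a v h4⟩
  have : v x / (1 + a x * v x) = ((v x)⁻¹ + a x)⁻¹ := by
    rw [h3, div_mul_eq_div_div, div_self (h0 x), one_div]
  rw [this]
  exact re_inv_pos (h1 x)

theorem pres_fug {ζ : ℝ} (hζ : 0 < ζ) : Pres (cm (fug ζ : BOp Λ)) :=
  pres_of_map fun v hv => ⟨1, fun x => ζ * v x, one_ne_zero,
    fun x => by rw [Complex.re_ofReal_mul]; exact mul_pos hζ (hv x),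
    by rw [cm_fug, Dg_ket, one_smul]⟩

theorem pres_step (x y : Λ) {p : ℝ} (hp0 : 0 ≤ p) (hp1 : p ≤ 1) : Pres (cm (step x y p)) := by
  intro f hf v hv
  have e : (f ᵥ* cm (step x y p)) ⬝ᵥ ket v =
      (1 - p) * (f ⬝ᵥ ket v) + p * (f ⬝ᵥ ket (v ∘ Equiv.swap x y)) := by
    rw [← dotProduct_mulVec, step, map_add, cm_smul, cm_smul, map_one, add_mulVec, smul_mulVec,
      smul_mulVec, one_mulVec, swp_ket, dotProduct_add, dotProduct_smul, dotProduct_smul]
    simp
  rw [e]
  by_cases hxy : x = y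
  · subst hxy
    have : v ∘ Equiv.swap x x = v := by funext z; simp
    rw [this]
    have := hf v hv
    intro h; apply this; linear_combination h
  · set g : ℂ → ℂ → ℂ := fun v1 v2 =>
      f ⬝ᵥ ket (Function.update (Function.update v x v1) y v2) with hg
    have g2 : ∀ v1 v2, g v1 v2 = (1 - v2) * g v1 0 + v2 * g v1 1 := by
      intro v1 v2
      simp only [hg]
      rw [ket_update, dotProduct_add, dotProduct_smul, dotProduct_smul, smul_eq_mul, smul_eq_mul]
    have g1 : ∀ v1 v2, g v1 v2 = (1 - v1) * g 0 v2 + v1 * g 1 v2 := by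
      intro v1 v2
      simp only [hg, Function.update_comm hxy]
      rw [ket_update, dotProduct_add, dotProduct_smul, dotProduct_smul, smul_eq_mul, smul_eq_mul]
    have g3 : ∀ v1 v2, g v1 v2 = g 0 0 + (g 1 0 - g 0 0) * v1 + (g 0 1 - g 0 0) * v2 +
        (g 1 1 - g 1 0 - g 0 1 + g 0 0) * (v1 * v2) := by
      intro v1 v2
      rw [g2 v1 v2, g1 v1 0, g1 v1 1]; ring
    have hst : ∀ v1 v2 : ℂ, 0 < v1.re → 0 < v2.re → g 0 0 + (g 1 0 - g 0 0) * v1 +
        (g 0 1 - g 0 0) * v2 + (g 1 1 - g 1 0 - g 0 1 + g 0 0) * (v1 * v2) ≠ 0 := by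
      intro v1 v2 h1 h2
      rw [← g3]
      refine hf _ fun z => ?_
      rcases eq_or_ne z y with rfl | hzy
      · simpa using h2
      · rw [Function.update_of_ne hzy]
        rcases eq_or_ne z x with rfl | hzx
        · simpa using h1
        · rw [Function.update_of_ne hzx]; exact hv z
    have k := two_var hst hp0 hp1 (hv x) (hv y)
    have e1 : f ⬝ᵥ ket v = g (v x) (v y) := by simp [hg]
    have e2 : f ⬝ᵥ ket (v ∘ Equiv.swap x y) = g (v y) (v x) := by
      simp only [hg]; rw [Equiv.comp_swap_eq_update, Function.update_comm (Ne.symm hxy)]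
    rw [e1, e2, g3 (v x) (v y), g3 (v y) (v x)]
    intro h; apply k; linear_combination h

theorem pres_adm {W : BOp Λ} (hW : W ∈ Adm Λ) : Pres (cm W) := by
  induction hW using Submonoid.closure_induction with
  | mem M hM =>
    rcases hM with ⟨x, y, p, h0, h1, rfl⟩ | ⟨ζ, hζ, rfl⟩
    · exact pres_step x y h0 h1
    · exact pres_fug hζ
  | one => rw [map_one]; exact pres_one
  | mul A B _ _ hA hB => rw [map_mul]; exact hA.mul hB

theorem stable_ket {u : Λ → ℂ} (hu : InH u) : Stable (ket u) := by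
  intro v hv
  have e : ket u ⬝ᵥ ket v = ∏ x, (1 + u x * v x) := by
    have : ∀ x, 1 + u x * v x = ∑ j : Bool,
        (if j = true then u x else 1) * (if j = true then v x else 1) := by
      intro x; simp [add_comm]
    simp only [this]
    rw [Finset.prod_univ_sum]
    simp only [dotProduct, ket, Fintype.piFinset_univ, Finset.prod_mul_distrib]
  rw [e]
  refine Finset.prod_ne_zero_iff.2 fun x _ h => ?_
  have h0 : v x ≠ 0 := fun h => by have := hv x; simp [h] at this
  have h1 : u x = -(v x)⁻¹ := by field_simp; linear_combination h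
  have h2 := re_inv_pos (hv x)
  have h3 := hu x
  rw [h1, Complex.neg_re] at h3
  linarith

/-! ### Asano contraction -/

theorem tc_update (φ : Λ → Bool → Bool → ℂ) (x : Λ) (ψ : Bool → Bool → ℂ) (σ τ : Λ → Bool) :
    tc (Function.update φ x ψ) σ τ =
      ψ (σ x) (τ x) * ∏ z ∈ Finset.univ.erase x, φ z (σ z) (τ z) := by
  rw [tc, of_apply, ← Finset.mul_prod_erase _ _ (Finset.mem_univ x), Function.update_self]
  congr 1
  refine Finset.prod_congr rfl fun z hz => ?_
  rw [Function.update_of_ne (Finset.ne_of_mem_erase hz)]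

theorem trace_update (M : COp Λ) (φ : Λ → Bool → Bool → ℂ) (x : Λ) :
    ∃ c00 c01 c10 c11 : ℂ, ∀ ψ : Bool → Bool → ℂ, (M * tc (Function.update φ x ψ)).trace =
      ψ false false * c00 + ψ false true * c01 + ψ true false * c10 + ψ true true * c11 := by
  let E : Bool → Bool → COp Λ := fun a b =>
    tc (Function.update φ x fun i j => if i = a ∧ j = b then 1 else 0)
  refine ⟨(M * E false false).trace, (M * E false true).trace, (M * E true false).trace,
    (M * E true true).trace, fun ψ => ?_⟩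
  have : tc (Function.update φ x ψ) = ψ false false • E false false + ψ false true • E false true +
      ψ true false • E true false + ψ true true • E true true := by
    ext σ τ
    simp only [E, Matrix.add_apply, Matrix.smul_apply, tc_update, smul_eq_mul]
    cases σ x <;> cases τ x <;> simp
  rw [this]
  simp only [Matrix.mul_add, Matrix.mul_smul, trace_add, trace_smul, smul_eq_mul]

/-- the regularised identity. -/
noncomputable def xi (t : ℝ) : Bool → Bool → ℂ := fun i j =>
  if i = j then (1 + t) / 2 else (1 - t) / 2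

theorem trace_xi_ne {M : COp Λ} (hM : Pres M) {t : ℝ} (ht0 : 0 ≤ t) (ht1 : t < 1) :
    (M * tc fun _ => xi t).trace ≠ 0 := by
  let rk : ℂ → ℂ → Bool → Bool → ℂ := fun v u i j =>
    (if i = true then v else 1) * (if j = true then u else 1)
  have key : ∀ S : Finset Λ, ∀ u v : Λ → ℂ, InH u → InH v →
      (M * tc fun x => if x ∈ S then xi t else rk (v x) (u x)).trace ≠ 0 := by
    intro S
    induction S using Finset.induction_on with
    | empty =>
      intro u v hu hv
      have e : (M * tc fun x => if x ∈ (∅ : Finset Λ) then xi t else rk (v x) (u x)).trace =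
          (ket u ᵥ* M) ⬝ᵥ ket v := by
        simp only [Finset.notMem_empty, if_false, rk, trace, diag_apply, mul_apply, tc, of_apply,
          Finset.prod_mul_distrib, dotProduct, vecMul, ket, Finset.sum_mul]
        rw [Finset.sum_comm]
        refine Finset.sum_congr rfl fun _ _ => Finset.sum_congr rfl fun _ _ => by ring
      rw [e]
      exact hM _ (stable_ket hu) v hv
    | insert x S hx ih =>
      intro u v hu hv
      obtain ⟨c00, c01, c10, c11, hc⟩ :=
        trace_update M (fun z => if z ∈ S then xi t else rk (v z) (u z)) x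
      have h1 : ∀ a b : ℂ, 0 < a.re → 0 < b.re → c00 + c01 * a + c10 * b + c11 * (a * b) ≠ 0 := by
        intro a b ha hb
        have hu' : InH (Function.update u x a) := fun z => by
          rcases eq_or_ne z x with rfl | h
          · simpa using ha
          · rw [Function.update_of_ne h]; exact hu z
        have hv' : InH (Function.update v x b) := fun z => by
          rcases eq_or_ne z x with rfl | h
          · simpa using hb
          · rw [Function.update_of_ne h]; exact hv z
        have h2 := ih _ _ hu' hv'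
        have e : (fun z => if z ∈ S then xi t else
            rk (Function.update v x b z) (Function.update u x a z)) =
            Function.update (fun z => if z ∈ S then xi t else rk (v z) (u z)) x (rk b a) := by
          funext z
          rcases eq_or_ne z x with rfl | h
          · simp [hx]
          · simp [Function.update_of_ne h]
        rw [e, hc] at h2
        intro h; apply h2
        simp only [rk]; simp; linear_combination h
      have e : (fun z => if z ∈ insert x S then xi t else rk (v z) (u z)) =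
          Function.update (fun z => if z ∈ S then xi t else rk (v z) (u z)) x (xi t) := by
        funext z
        rcases eq_or_ne z x with rfl | h
        · simp
        · simp [Function.update_of_ne h, h]
      rw [e, hc]
      have h3 := asano h1 ht0 ht1
      intro h; apply h3
      simp only [xi] at h; simp at h; linear_combination h
  simpa using key Finset.univ (fun _ => 1) (fun _ => 1) (fun _ => by simp) (fun _ => by simp)

end Crest.Agent.N337.LY
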